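/- Interface stubs for S0453 packages (sorry here; each package proves its theorem in its own file,
   with the SAME name minus the `stub_` prefix, and the assembly imports those files). -/
import Crest.Agent.Lib.SW.Core

set_option autoImplicit false
namespace Crest.Agent.SW
open Finset Crest.SwitchChain

/-! ## Package A : spectral lemma (abstract) -/
theorem stub_spectral_of_bochner {X : Type*} [Fintype X] [Nonempty X]
    (T : (X → ℝ) →ₗ[ℝ] (X → ℝ))
    (hsymm : ∀ f g, dot (T f) g = dot f (T g))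
    (hconst : T (fun _ => 1) = 0)
    (c : ℝ) (hc : 0 < c)
    (hpos : ∀ f, 0 ≤ dot f (T f))
    (hboch : ∀ f, c * dot f (T f) ≤ dot (T f) (T f))
    (hker : ∀ f, dot f (T f) = 0 → ∀ x y, f x = f y) (f : X → ℝ) :
    c * (dot f f - (∑ x, f x) ^ 2 / (Fintype.card X : ℝ)) ≤ dot f (T f) := sorry

/-- Top eigenvector on the mean-zero subspace. -/
theorem stub_exists_top_eigen {X : Type*} [Fintype X]
    (T : (X → ℝ) →ₗ[ℝ] (X → ℝ))
    (hsymm : ∀ f g, dot (T f) g = dot f (T g))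
    (hmean : ∀ f, ∑ x, f x = 0 → ∑ x, T f x = 0)
    (h0 : ∃ h : X → ℝ, ∑ x, h x = 0 ∧ h ≠ 0) :
    ∃ (β : ℝ) (F : X → ℝ), ∑ x, F x = 0 ∧ F ≠ 0 ∧ T F = β • F ∧
      ∀ f, ∑ x, f x = 0 → dot f (T f) ≤ β * dot f f := sorry

/-! ## Package B : Johnson fibre lemma.  `M : Finset ι`, `𝓕 = powersetCard k M`. -/
section Johnson
variable {ι : Type*} [DecidableEq ι]

/-- Ordered Dirichlet sum on the Johnson graph. -/
noncomputable def jDir (M : Finset ι) (k : ℕ) (g : Finset ι → ℝ) : ℝ :=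
  ∑ c ∈ M, ∑ e ∈ M.erase c, ∑ X ∈ (powersetCard k M).filter (fun X => c ∈ X ∧ e ∉ X),
    (g X - g (insert e (X.erase c))) ^ 2

/-- Mean on the Johnson fibre. -/
noncomputable def jMean (M : Finset ι) (k : ℕ) (g : Finset ι → ℝ) : ℝ :=
  (∑ X ∈ powersetCard k M, g X) / ((powersetCard k M).card : ℝ)

/-- Centered sum of squares on the Johnson fibre. -/
noncomputable def jVar (M : Finset ι) (k : ℕ) (g : Finset ι → ℝ) : ℝ :=
  ∑ X ∈ powersetCard k M, (g X - jMean M k g) ^ 2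

/-- `T_ce`. -/
noncomputable def jT (M : Finset ι) (k : ℕ) (g : Finset ι → ℝ) (c e : ι) : ℝ :=
  ∑ X ∈ (powersetCard k M).filter (fun X => ¬ (c ∈ X ↔ e ∈ X)), (g X - jMean M k g)

/-- Johnson gap: `2 m Var ≤ jDir`. -/
theorem stub_johnson_gap (M : Finset ι) (k : ℕ) (g : Finset ι → ℝ) :
    2 * (M.card : ℝ) * jVar M k g ≤ jDir M k g := sorry

/-- Frame bound: `∑_{c≠e} T_ce^2 ≤ 2 (m-2) n₁ Var`, `n₁ = C(m-2,k-1)`. -/
theorem stub_johnson_frame (M : Finset ι) (k : ℕ) (hM : 2 ≤ M.card) (g : Finset ι → ℝ) :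
    ∑ c ∈ M, ∑ e ∈ M.erase c, (jT M k g c e) ^ 2 ≤
      2 * ((M.card : ℝ) - 2) * ((M.card - 2).choose (k - 1) : ℝ) * jVar M k g := sorry

end Johnson

/-! ## Package C : the three-row table lemma -/
section Table
variable {U : Type*} [Fintype U] [DecidableEq U]

/-- 3-row tables: `x j` is the special row of column `j`; `ε j = true` means +1, false means -1;
the signed count of columns with special row `i` is prescribed. -/
abbrev T3 (ε : U → Bool) (s : Fin 3 → ℤ) :=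
  {x : U → Fin 3 // ∀ i, ∑ j, (if x j = i then (if ε j then (1 : ℤ) else -1) else 0) = s i}

/-- Same row `i`. -/
def t3Rel (ε : U → Bool) (s : Fin 3 → ℤ) (i : Fin 3) : Setoid (T3 ε s) where
  r x y := ∀ j, x.1 j = i ↔ y.1 j = i
  iseqv := ⟨fun _ _ => Iff.rfl, fun h j => (h j).symm, fun h k j => (h j).trans (k j)⟩

/-- **Three-row lemma.** -/
theorem stub_t3_cross_nonneg (ε : U → Bool) (s : Fin 3 → ℤ) (F : T3 ε s → ℝ) :
    0 ≤ dot (Qop (t3Rel ε s 0) F) (Qop (t3Rel ε s 1) F)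
      + dot (Qop (t3Rel ε s 0) F) (Qop (t3Rel ε s 2) F)
      + dot (Qop (t3Rel ε s 1) F) (Qop (t3Rel ε s 2) F) := sorry

end Table

/-! ## Package D : triple-fibre isomorphism ⇒ cross term nonnegative on graphs -/
theorem stub_triple_cross_nonneg {n : ℕ} {d : Fin n → ℕ} (a b c : Fin n)
    (hab : a ≠ b) (hac : a ≠ c) (hbc : b ≠ c) (f : Om d → ℝ) :
    0 ≤ dot (Qab a b f) (Qab a c f) + dot (Qab a b f) (Qab b c f)
      + dot (Qab a c f) (Qab b c f) := sorry

/-! ## Packages E,F : the block inequality -/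
theorem stub_block_ineq {n : ℕ} {d : Fin n → ℕ} (a b c e : Fin n)
    (hab : a ≠ b) (hac : a ≠ c) (hae : a ≠ e) (hbc : b ≠ c) (hbe : b ≠ e) (hce : c ≠ e)
    (f : Om d → ℝ) :
    SwT a b c e f - Neg a b c e f - Neg c e a b f ≤ 2 * dot (Qab a b f) (Qab c e f) := sorry

/-! ## Package G : summation over the Johnson fibre of `(a,b)` -/
theorem stub_fibre_sum {n : ℕ} {d : Fin n → ℕ} (a b : Fin n) (hab : a ≠ b) (f : Om d → ℝ) :
    4 * dot (Qab a b f) (Qab a b f) ≤
      ∑ c ∈ (univ.erase a).erase b, ∑ e ∈ ((univ.erase a).erase b).erase c,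
        (SwT a b c e f - 2 * Neg a b c e f) := sorry

theorem stub_fibre_gap {n : ℕ} {d : Fin n → ℕ} (a b : Fin n) (hab : a ≠ b) (f : Om d → ℝ) :
    4 * dot (Qab a b f) (Qab a b f) ≤
      ∑ c ∈ (univ.erase a).erase b, ∑ e ∈ ((univ.erase a).erase b).erase c, SwT a b c e f := sorry

/-! ## Package H : connectivity -/
theorem stub_connected {n : ℕ} {d : Fin n → ℕ} (f : Om d → ℝ)
    (h : ∀ a b, a ≠ b → ∀ G, Qab a b f G = 0) (G H : Om d) : f G = f H := sorry

/-! ## Package I : kernel facts, TV, final -/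
/-- Dirichlet form of the chain dominates the switch sum (any multiplicity up to `n^2` is fine). -/
theorem stub_dirichlet_lower {n : ℕ} (hn : 4 ≤ n) {d : Fin n → ℕ} (f : Finset (Edge n) → ℝ) :
    ∑ a, ∑ b, ∑ c, ∑ e, (if a ≠ b ∧ a ≠ c ∧ a ≠ e ∧ b ≠ c ∧ b ≠ e ∧ c ≠ e then
        SwT (d := d) a b c e (fun G => f G.1) else 0) ≤
      24 * (n : ℝ) ^ 2 * (n.choose 4 : ℝ) *
        ∑ G ∈ realizations d, f G * (f G - ∑ G' ∈ realizations d, kernel n G G' * f G') := sorry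

/-- TV from Poincaré. -/
theorem stub_tv_of_poincare (n : ℕ) (hn : 4 ≤ n) (d : Fin n → ℕ) (hd : (realizations d).Nonempty)
    (hP : ∀ f : Finset (Edge n) → ℝ,
        ((realizations d).card : ℝ) * (∑ G ∈ realizations d, f G ^ 2) -
            (∑ G ∈ realizations d, f G) ^ 2 ≤
          24 * (n : ℝ) ^ 2 * (n.choose 4 : ℝ) * (realizations d).card *
            ∑ G ∈ realizations d,
              f G * (f G - ∑ G' ∈ realizations d, kernel n G G' * f G')) :
    ∃ t : ℕ, t ≤ 2 * n ^ 8 ∧ ∀ G ∈ realizations d,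
        tvDist (fun G' => (kernel n ^ t) G G') (unifOn (realizations d)) ≤ 1 / 4 := sorry

end Crest.Agent.SW
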